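import Vale.Agent.P011.Hey.Final
import Vale.Agent.P011.Hey.H63.Loc
import Mathlib.Algebra.QuadraticAlgebra.NormDeterminant

/-!
# Quadratic forms over a global function field, any characteristic, trace-one letters

`nf a x y = x ^ 2 + x y + a y ^ 2` is the norm form of `X ^ 2 - X + a`.  The Hasse principle for the
representation of an element by such a form and for the quaternary forms `r N_a - N_b`, with local
conditions in the completions.  Twin of `H465/R6B.lean` without `2 ≠ 0` (helper477).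
-/

open Module Polynomial TensorProduct

set_option linter.unusedSectionVars false
set_option linter.unusedVariables false
set_option linter.style.haveILetI false

namespace Vale.Agent.P011.H477.C2

open Vale.Agent.P011.H738 Vale.Agent.P011.H271 Vale.Agent.P011.Hey

/-- The norm form of `X ^ 2 - X + a`. -/
def nf {L : Type*} [CommRing L] (a x y : L) : L := x ^ 2 + x * y + a * y ^ 2

theorem nf_map {L M : Type*} [CommRing L] [CommRing M] (f : L →+* M) (a x y : L) :
    f (nf a x y) = nf (f a) (f x) (f y) := by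
  simp only [nf, map_add, map_mul, map_pow]

/-- The multiplicativity of the form. -/
theorem nf_mul {L : Type*} [CommRing L] (a x y z w : L) :
    nf a x y * nf a z w = nf a (x * z - a * y * w) (x * w + y * z + y * w) := by
  simp only [nf]
  ring

/-- The form represents everything if `X ^ 2 - X + a` has a root. -/
theorem rep_of_root {L : Type*} [Field L] {a c : L} (hd : 1 - 4 * a ≠ 0)
    (h : ∃ α : L, α ^ 2 - α + a = 0) : ∃ x y : L, nf a x y = c := by
  obtain ⟨α, hα⟩ := h
  have h1 : (2 * α - 1) ^ 2 = 1 - 4 * a := by linear_combination 4 * hα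
  have h2 : 2 * α - 1 ≠ 0 := by
    intro h
    rw [h] at h1
    exact hd (by rw [← h1]; ring)
  obtain ⟨y, hy⟩ : ∃ y, (2 * α - 1) * y = c - 1 := ⟨(c - 1) / (2 * α - 1), by field_simp⟩
  refine ⟨c - α * y, y, ?_⟩
  simp only [nf]
  linear_combination y ^ 2 * hα - c * hy

/-- In a field with a root of `X ^ 2 - X + (a + b - 4 a b)` the two norm groups agree. -/
theorem merge {L : Type*} [Field L] {a b r θ x y z w : L} (ha : 1 - 4 * a ≠ 0)
    (hθ : θ ^ 2 - θ + (a + b - 4 * a * b) = 0)
    (hn : nf a x y ≠ 0) (h : r * nf a x y = nf b z w) :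
    ∃ X Y : L, nf a X Y = r := by
  obtain ⟨s, hs⟩ : ∃ s : L, s * (1 - 4 * a) = 1 := ⟨(1 - 4 * a)⁻¹, inv_mul_cancel₀ ha⟩
  obtain ⟨z', hz'⟩ : ∃ z' : L, z' = z + w * (θ - 2 * a) * s := ⟨_, rfl⟩
  obtain ⟨w', hw'⟩ : ∃ w' : L, w' = w * (1 - 2 * θ) * s := ⟨_, rfl⟩
  have h1 : nf a z' w' = nf b z w := by
    rw [hz', hw']
    simp only [nf]
    have e1 : ((θ - 2 * a) ^ 2 + (θ - 2 * a) * (1 - 2 * θ) + a * (1 - 2 * θ) ^ 2) =
        b * (1 - 4 * a) ^ 2 := by
      linear_combination (4 * a - 1) * hθ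
    linear_combination (w ^ 2 * s ^ 2) * e1 + z * w * hs + b * w ^ 2 * (s * (1 - 4 * a) + 1) * hs
  refine ⟨(z' * (x + y) + a * w' * y) / nf a x y, (w' * x - z' * y) / nf a x y, ?_⟩
  have h2 : nf a ((z' * (x + y) + a * w' * y) / nf a x y) ((w' * x - z' * y) / nf a x y) =
      nf a z' w' / nf a x y := by
    generalize hN : nf a x y = N at hn ⊢
    simp only [nf] at hN ⊢
    field_simp
    rw [← hN]
    ring
  rw [h2, h1, ← h, mul_div_cancel_right₀ _ hn]

/-- The algebra behind the descent from the third quadratic field. -/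
theorem descend {F : Type*} [Field F] {a b r p1 p2 q1 q2 : F} (ha : 1 - 4 * a ≠ 0)
    (hna : ∀ α : F, α ^ 2 - α + a ≠ 0) (hr : r ≠ 0)
    (h1 : nf a p1 q1 - (a + b - 4 * a * b) * nf a p2 q2 = r)
    (h2 : 2 * p1 * p2 + p1 * q2 + q1 * p2 + 2 * a * q1 * q2 + nf a p2 q2 = 0) :
    ∃ x y z w : F, nf a x y ≠ 0 ∧ nf b z w ≠ 0 ∧ r * nf a x y = nf b z w := by
  have hani : ∀ x y : F, nf a x y = 0 → x = 0 ∧ y = 0 := by
    intro x y hxy
    by_cases hy : y = 0
    · subst hy
      refine ⟨?_, rfl⟩
      have : x ^ 2 = 0 := by simp only [nf] at hxy; linear_combination hxy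
      exact pow_eq_zero_iff two_ne_zero |>.mp this
    · exfalso
      apply hna (-(x / y))
      simp only [nf] at hxy
      field_simp
      linear_combination hxy
  by_cases h0 : p2 = 0 ∧ q2 = 0
  · obtain ⟨rfl, rfl⟩ := h0
    have h3 : nf a p1 q1 = r := by
      rw [← h1]
      simp only [nf]
      ring
    refine ⟨(p1 + q1) / r, -q1 / r, 1, 0, ?_, ?_, ?_⟩
    · have : nf a ((p1 + q1) / r) (-q1 / r) = 1 / r := by
        simp only [nf] at h3 ⊢
        field_simp
        linear_combination h3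
      rw [this]
      exact one_div_ne_zero hr
    · simp [nf]
    · simp only [nf] at h3 ⊢
      field_simp
      linear_combination h3
  · have hN : nf a p2 q2 ≠ 0 := fun h3 => h0 (hani _ _ h3)
    -- `P / Q = r1 + r2 x1`
    obtain ⟨N, hNd⟩ : ∃ N, N = nf a p2 q2 := ⟨_, rfl⟩
    rw [← hNd] at hN h1 h2
    obtain ⟨r1, hr1⟩ : ∃ r1, r1 * N = p1 * (p2 + q2) + a * q1 * q2 :=
      ⟨(p1 * (p2 + q2) + a * q1 * q2) / N, by field_simp⟩
    obtain ⟨r2, hr2⟩ : ∃ r2, r2 * N = q1 * p2 - p1 * q2 :=
      ⟨(q1 * p2 - p1 * q2) / N, by field_simp⟩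
    have htr : 2 * r1 + r2 = -1 := by
      have : (2 * r1 + r2 + 1) * N = 0 := by linear_combination 2 * hr1 + hr2 + h2
      have := (mul_eq_zero.mp this).resolve_right hN
      linear_combination this
    have hmulN : nf a r1 r2 * N = nf a p1 q1 := by
      have e1 : nf a r1 r2 * N * N = nf a p1 q1 * N := by
        have : nf a r1 r2 * N * N = nf a (r1 * N) (r2 * N) := by simp only [nf]; ring
        rw [this, hr1, hr2, hNd]
        simp only [nf]
        ring
      exact mul_right_cancel₀ hN e1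
    have hkey : r = N * (-(1 - 4 * a)) * nf b r1 1 := by
      have e2 : r2 = -1 - 2 * r1 := by linear_combination htr
      rw [← h1, ← hmulN, e2]
      simp only [nf]
      ring
    have hD : nf a 1 (-2 : F) = -(1 - 4 * a) := by simp only [nf]; ring
    have hD0 : nf a 1 (-2 : F) ≠ 0 := by rw [hD]; exact neg_ne_zero.mpr ha
    -- `κ = (Q (1 - 2 x1))⁻¹`
    obtain ⟨M, hM⟩ : ∃ M, M = N * nf a 1 (-2 : F) := ⟨_, rfl⟩
    have hM0 : M ≠ 0 := by rw [hM]; exact mul_ne_zero hN hD0
    have hMn : M = nf a (p2 + 2 * a * q2) (-2 * p2 + q2 - 2 * q2) := by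
      rw [hM, hNd]
      simp only [nf]
      ring
    obtain ⟨u, v, huv⟩ : ∃ u v : F, nf a u v = M := ⟨_, _, hMn.symm⟩
    have hinv : nf a ((u + v) / M) (-v / M) = 1 / M := by
      have e3 : nf a ((u + v) / M) (-v / M) = nf a u v / M ^ 2 := by
        simp only [nf]
        field_simp
        ring
      rw [e3, huv]
      field_simp
    have hrM : r = M * nf b r1 1 := by rw [hkey, hM, hD]
    refine ⟨(u + v) / M, -v / M, r1, 1, ?_, ?_, ?_⟩
    · rw [hinv]; exact one_div_ne_zero hM0
    · intro h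
      rw [h, mul_zero] at hrM
      exact hr hrM
    · rw [hinv, hrM]
      field_simp

section quad

variable {F : Type} [Field F] {a : F} [hab : Fact (∀ r : F, r ^ 2 ≠ -a + 1 * r)]

/-- The field generated by a root of `X ^ 2 - X + a`. -/
abbrev QA (a : F) : Type := QuadraticAlgebra F (-a) 1

theorem norm_quad (z : QA a) : Algebra.norm F z = nf a z.re z.im := by
  have h1 : Algebra.norm F z = (DistribSMul.toLinearMap F (QA a) z).det := rfl
  rw [h1, QuadraticAlgebra.det_toLinearMap_eq_norm, QuadraticAlgebra.norm_def]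
  simp only [nf]
  ring

/-- The generator. -/
def om (a : F) : QA a := ⟨0, 1⟩

theorem om_sq : om a * om a = om a - algebraMap F (QA a) a := by
  ext <;> simp [om, QuadraticAlgebra.algebraMap_re]

theorem eq_om (z : QA a) : z = algebraMap F (QA a) z.re + algebraMap F (QA a) z.im * om a := by
  ext <;> simp [om]

theorem om_ne (c : F) : algebraMap F (QA a) c ≠ om a := by
  intro h
  have h1 := congrArg QuadraticAlgebra.im h
  simp [om] at h1

/-- The polynomial. -/
noncomputable def pl (a : F) : F[X] := X ^ 2 - X + C a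

theorem pl_monic : (pl a).Monic := by
  unfold pl
  monicity!

theorem pl_natDegree : (pl a).natDegree = 2 := by
  unfold pl
  compute_degree!

theorem aeval_pl {A : Type*} [CommRing A] [Algebra F A] (x : A) :
    aeval x (pl a) = x ^ 2 - x + algebraMap F A a := by
  simp [pl]

theorem pl_om : aeval (om a) (pl a) = 0 := by
  rw [aeval_pl, sq, om_sq]
  ring

theorem sep_pl (hd : 1 - 4 * a ≠ 0) : (pl a).Separable := by
  rw [separable_def']
  have hC4 : (C (4 : F) : F[X]) = 4 := map_ofNat (C : F →+* F[X]) 4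
  have h1 : derivative (pl a) = 2 * X - 1 := by
    unfold pl
    simp only [derivative_add, derivative_sub, derivative_X_pow, derivative_X, derivative_C]
    norm_num
    exact map_ofNat (C : F →+* F[X]) 2
  refine ⟨C (-4 * (1 - 4 * a)⁻¹), C ((1 - 4 * a)⁻¹) * (2 * X - 1), ?_⟩
  rw [h1]
  have h2 : C ((1 - 4 * a)⁻¹) * C (1 - 4 * a) = (1 : F[X]) := by
    rw [← C_mul, inv_mul_cancel₀ hd, C_1]
  have h3 : C (-4 * (1 - 4 * a)⁻¹) = -4 * C ((1 - 4 * a)⁻¹) := by
    rw [C_mul, C_neg, hC4]
  have h4 : (C (1 - 4 * a) : F[X]) = 1 - 4 * C a := by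
    rw [C_sub, C_mul, hC4, C_1]
  rw [h3]
  rw [h4] at h2
  unfold pl
  linear_combination h2

theorem sep_quad (hd : 1 - 4 * a ≠ 0) : Algebra.IsSeparable F (QA a) := by
  have h1 : IsSeparable F (om a) := (sep_pl hd).of_dvd (minpoly.dvd F _ pl_om)
  refine ⟨fun z => ?_⟩
  rw [eq_om z]
  exact Field.isSeparable_add (isSeparable_algebraMap _)
    (Field.isSeparable_mul (isSeparable_algebraMap _) h1)

theorem norm_tensor {A : Type} [Field A] [Algebra F A] (x y : A) :
    Algebra.norm A (x ⊗ₜ[F] (1 : QA a) + y ⊗ₜ[F] om a) = nf (algebraMap F A a) x y := by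
  classical
  let b0 := QuadraticAlgebra.basis (-a) (1 : F)
  let b := Algebra.TensorProduct.basis A b0
  rw [Algebra.norm_eq_matrix_det b, Matrix.det_fin_two]
  have hb0 : b 0 = (1 : A) ⊗ₜ[F] (1 : QA a) := by
    rw [Algebra.TensorProduct.basis_apply]
    congr 1
    apply b0.repr.injective
    rw [Basis.repr_self]
    ext i
    fin_cases i <;> simp [b0, QuadraticAlgebra.basis_repr_apply] <;> rfl
  have hb1 : b 1 = (1 : A) ⊗ₜ[F] om a := by
    rw [Algebra.TensorProduct.basis_apply]
    congr 1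
    apply b0.repr.injective
    rw [Basis.repr_self]
    ext i
    fin_cases i <;> simp [b0, QuadraticAlgebra.basis_repr_apply, om]
  have h0 : (x ⊗ₜ[F] (1 : QA a) + y ⊗ₜ[F] om a) * b 0 = x • b 0 + y • b 1 := by
    rw [hb0, hb1, add_mul, Algebra.TensorProduct.tmul_mul_tmul,
      Algebra.TensorProduct.tmul_mul_tmul, mul_one, mul_one, mul_one, mul_one,
      TensorProduct.smul_tmul', TensorProduct.smul_tmul', smul_eq_mul, smul_eq_mul, mul_one,
      mul_one]
  have h1 : (x ⊗ₜ[F] (1 : QA a) + y ⊗ₜ[F] om a) * b 1 =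
      (-(algebraMap F A a * y)) • b 0 + (x + y) • b 1 := by
    rw [hb0, hb1, add_mul, Algebra.TensorProduct.tmul_mul_tmul,
      Algebra.TensorProduct.tmul_mul_tmul, mul_one, mul_one, one_mul, om_sq, tmul_sub,
      TensorProduct.smul_tmul', TensorProduct.smul_tmul', smul_eq_mul, smul_eq_mul, mul_one,
      mul_one, Algebra.algebraMap_eq_smul_one, ← TensorProduct.smul_tmul, ← Algebra.smul_def,
      add_tmul, neg_tmul]
    abel
  simp only [Algebra.leftMulMatrix_eq_repr_mul, h0, h1, map_add, map_smul, Basis.repr_self,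
    Finsupp.add_apply, Finsupp.smul_apply, Finsupp.single_apply, smul_eq_mul]
  norm_num
  simp only [nf]
  ring

theorem tensor_eq {A : Type} [Field A] [Algebra F A] (z : A ⊗[F] QA a) :
    ∃ x y : A, z = x ⊗ₜ[F] (1 : QA a) + y ⊗ₜ[F] om a := by
  induction z using TensorProduct.induction_on with
  | zero => exact ⟨0, 0, by rw [zero_tmul, zero_tmul, add_zero]⟩
  | tmul u w =>
    refine ⟨u * algebraMap F A w.re, u * algebraMap F A w.im, ?_⟩
    conv_lhs => rw [eq_om w]
    rw [tmul_add, Algebra.algebraMap_eq_smul_one, Algebra.algebraMap_eq_smul_one, smul_mul_assoc,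
      one_mul, ← smul_tmul, ← smul_tmul, Algebra.smul_def, Algebra.smul_def, mul_comm,
      mul_comm (algebraMap F A w.im)]
  | add u w hu hw =>
    obtain ⟨x, y, rfl⟩ := hu
    obtain ⟨x', y', rfl⟩ := hw
    exact ⟨x + x', y + y', by rw [add_tmul, add_tmul]; abel⟩

/-- Local norms from the quadratic extension generated by a root of `X ^ 2 - X + a`. -/
theorem locN_quad_iff {c : F} {P : Place F} : H63.LocN (QA a) c P ↔
    ∃ x y : P.comp, nf (algebraMap F P.comp a) x y = algebraMap F P.comp c := by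
  constructor
  · rintro ⟨z, hz⟩
    obtain ⟨x, y, rfl⟩ := tensor_eq z
    exact ⟨x, y, by rw [← norm_tensor, hz]⟩
  · rintro ⟨x, y, h⟩
    exact ⟨x ⊗ₜ[F] (1 : QA a) + y ⊗ₜ[F] om a, by rw [norm_tensor, h]⟩

end quad

section global

variable {F : Type} [Field F] [GFF F]

theorem fact_of {a : F} (h : ∀ α : F, α ^ 2 - α + a ≠ 0) : Fact (∀ r : F, r ^ 2 ≠ -a + 1 * r) :=
  ⟨fun r hr => h r (by rw [hr]; ring)⟩

/-- **Hasse principle for the representation of an element by the form** `nf a`. -/
theorem hasse_nf {a b : F} (hd : 1 - 4 * a ≠ 0)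
    (h : ∀ P : Place F, ∃ x y : P.comp,
      nf (algebraMap F P.comp a) x y = algebraMap F P.comp b) :
    ∃ x y : F, nf a x y = b := by
  by_cases hs : ∃ α : F, α ^ 2 - α + a = 0
  · exact rep_of_root hd hs
  push Not at hs
  haveI := fact_of hs
  haveI := sep_quad (a := a) hd
  have hE : finrank F (QA a) = 2 := QuadraticAlgebra.finrank_eq_two _ _
  obtain ⟨e, he⟩ := Hey.hasse_norm Nat.prime_two hE b fun P => locN_quad_iff.mpr (h P)
  exact ⟨e.re, e.im, by rw [← norm_quad, he]⟩

/-- **Hasse principle for the quaternary forms** `r N_a - N_b`. -/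
theorem hasse4 {a b r : F} (ha : 1 - 4 * a ≠ 0) (hb : 1 - 4 * b ≠ 0) (hr : r ≠ 0)
    (h : ∀ P : Place F, ∃ x y z w : P.comp, nf (algebraMap F P.comp a) x y ≠ 0 ∧
      algebraMap F P.comp r * nf (algebraMap F P.comp a) x y =
        nf (algebraMap F P.comp b) z w) :
    ∃ x y z w : F, nf a x y ≠ 0 ∧ nf b z w ≠ 0 ∧ r * nf a x y = nf b z w := by
  by_cases hsa : ∃ α : F, α ^ 2 - α + a = 0
  · obtain ⟨x, y, hxy⟩ := rep_of_root ha hsa (c := 1 / r)
    refine ⟨x, y, 1, 0, ?_, ?_, ?_⟩
    · rw [hxy]; exact one_div_ne_zero hr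
    · simp [nf]
    · rw [hxy]; simp only [nf]; field_simp; ring
  by_cases hsb : ∃ β : F, β ^ 2 - β + b = 0
  · obtain ⟨z, w, hzw⟩ := rep_of_root hb hsb (c := r)
    refine ⟨1, 0, z, w, ?_, ?_, ?_⟩
    · simp [nf]
    · rw [hzw]; exact hr
    · rw [hzw]; simp [nf]
  push Not at hsa
  by_cases hs : ∃ θ : F, θ ^ 2 - θ + (a + b - 4 * a * b) = 0
  · obtain ⟨θ, hθ⟩ := hs
    obtain ⟨X, Y, hXY⟩ := hasse_nf ha (b := r) fun P => by
      obtain ⟨x, y, z, w, hn, hxy⟩ := h P
      refine merge (θ := algebraMap F P.comp θ) ?_ ?_ hn hxy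
      · have := (map_ne_zero (algebraMap F P.comp)).mpr ha
        simpa only [map_sub, map_mul, map_one, map_ofNat] using this
      · have := congrArg (algebraMap F P.comp) hθ
        simpa only [map_sub, map_mul, map_one, map_ofNat, map_add, map_pow, map_zero] using this
    obtain ⟨x, y, hxy⟩ := merge (a := b) (b := a) (r := r) (θ := θ) (x := 1) (y := 0) (z := X)
      (w := Y) hb (by linear_combination hθ) (by simp [nf]) (by rw [hXY]; simp [nf])
    refine ⟨1, 0, x, y, by simp [nf], ?_, ?_⟩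
    · rw [hxy]; exact hr
    · rw [hxy]; simp [nf]
  push Not at hs
  haveI := fact_of hs
  have hfin : FiniteDimensional F (QA (a + b - 4 * a * b)) := inferInstance
  haveI : GFF (QA (a + b - 4 * a * b)) := H63.gff_of_finite (k := F)
  have haL : 1 - 4 * algebraMap F (QA (a + b - 4 * a * b)) a ≠ 0 := by
    have := (map_ne_zero (algebraMap F (QA (a + b - 4 * a * b)))).mpr ha
    simpa only [map_sub, map_mul, map_one, map_ofNat] using this
  obtain ⟨X, Y, hXY⟩ := hasse_nf haL (b := algebraMap F (QA (a + b - 4 * a * b)) r) fun P => by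
    obtain ⟨v, s, hs, hvP⟩ := H63.exists_below (k := F) P
    obtain ⟨φ, hφ⟩ := H63.exists_compHom v P hs hvP
    obtain ⟨x, y, z, w, hn, hxy⟩ := h v
    have h5 := congrArg φ hxy
    have h6 := (map_ne_zero φ).mpr hn
    simp only [map_mul, nf_map, hφ] at h5 h6
    refine merge (θ := algebraMap (QA (a + b - 4 * a * b)) P.comp (om (a + b - 4 * a * b)))
      ?_ ?_ h6 h5
    · have := (map_ne_zero (algebraMap (QA (a + b - 4 * a * b)) P.comp)).mpr haL
      simpa only [map_sub, map_mul, map_one, map_ofNat] using this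
    · have h7 := congrArg (algebraMap (QA (a + b - 4 * a * b)) P.comp)
        (om_sq (a := a + b - 4 * a * b))
      simp only [map_mul, map_sub, map_add, map_ofNat] at h7
      linear_combination h7
  have hre := congrArg QuadraticAlgebra.re hXY
  have him := congrArg QuadraticAlgebra.im hXY
  simp only [nf, sq, QuadraticAlgebra.re_add, QuadraticAlgebra.im_add, QuadraticAlgebra.re_mul,
    QuadraticAlgebra.im_mul, QuadraticAlgebra.algebraMap_re, QuadraticAlgebra.algebraMap_im]
    at hre him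
  refine descend (b := b) (p1 := X.re) (p2 := X.im) (q1 := Y.re) (q2 := Y.im) ha hsa hr ?_ ?_
  · simp only [nf]
    linear_combination hre
  · simp only [nf]
    linear_combination him

theorem comp_ne {P : Place F} {c : F} (h : c ≠ 0) : algebraMap F P.comp c ≠ 0 :=
  (_root_.map_ne_zero _).mpr h

theorem comp_disc {P : Place F} {a : F} (h : 1 - 4 * a ≠ 0) :
    1 - 4 * algebraMap F P.comp a ≠ 0 := by
  have := (map_ne_zero (algebraMap F P.comp)).mpr h
  simpa only [map_sub, map_mul, map_one, map_ofNat] using this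

/-- Hensel: `X ^ 2 - X + a` has a root in the completion if `|a| < 1`. -/
theorem exists_root_comp {P : Place F} {a : P.comp} (ha : ‖a‖ < 1) :
    ∃ α : P.comp, α ^ 2 - α + a = 0 ∧ ‖α‖ < 1 := by
  let a0 : H63.OK P.comp := ⟨a, ha.le⟩
  obtain ⟨z, hz1, hz⟩ := H63.hensel (K := P.comp) (X ^ 2 + C (-1) * X + C a0) (by
    have e : (X ^ 2 + C (-1) * X + C a0 : (H63.OK P.comp)[X]).coeff 0 = a0 := by simp
    rw [e]
    exact ha) (by
    have e : (X ^ 2 + C (-1) * X + C a0 : (H63.OK P.comp)[X]).coeff 1 = -1 := by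
      simp [coeff_X, coeff_C, coeff_X_pow]
    rw [e]
    change ‖(-1 : P.comp)‖ = 1
    rw [norm_neg, norm_one])
  refine ⟨z, ?_, hz1⟩
  have h3 := congrArg (fun y : H63.OK P.comp => (y : P.comp)) hz
  simp only [eval_add, eval_pow, eval_X, eval_mul, eval_C] at h3
  have h4 : ((z : P.comp)) ^ 2 + -1 * z + a = 0 := h3
  linear_combination h4

theorem exists_root_place {P : Place F} {a : F} (ha : P.abv a < 1) :
    ∃ α : P.comp, α ^ 2 - α + algebraMap F P.comp a = 0 := by
  obtain ⟨α, h, -⟩ := exists_root_comp (P := P) (a := algebraMap F P.comp a) (by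
    rw [norm_alg]; exact ha)
  exact ⟨α, h⟩

/-- If `X ^ 2 - X + a` is integral with unit discriminant at `P` then the elements of even order are
local norms. -/
theorem loc_int {P : Place F} {a s c : F} (ha : P.abv a ≤ 1) (hd : P.abv (1 - 4 * a) = 1)
    (hc : c ≠ 0) (hs : P.abv s = P.abv c ^ 2) :
    ∃ z w : P.comp, nf (algebraMap F P.comp a) z w = algebraMap F P.comp s := by
  have hd0 : 1 - 4 * a ≠ 0 := by
    intro h
    rw [h, map_zero] at hd
    exact zero_ne_one hd
  by_cases hr : ∃ α : F, α ^ 2 - α + a = 0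
  · obtain ⟨α, hα⟩ := hr
    refine rep_of_root (comp_disc hd0) ⟨algebraMap F P.comp α, ?_⟩
    have := congrArg (algebraMap F P.comp) hα
    simpa only [map_sub, map_add, map_pow, map_zero] using this
  push Not at hr
  haveI := fact_of hr
  haveI := sep_quad (a := a) hd0
  have hE : finrank F (QA a) = 2 := QuadraticAlgebra.finrank_eq_two _ _
  haveI : FiniteDimensional F (QA a) := Module.finite_of_finrank_pos (by rw [hE]; norm_num)
  obtain ⟨pb, hpb, hmp⟩ := H63.exists_pb Nat.prime_two hE (pl_monic (a := a)) pl_natDegree pl_om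
    om_ne
  have hcoeff : ∀ i, (pl a).coeff i = (if i = 2 then 1 else 0) - (if i = 1 then 1 else 0) +
      (if i = 0 then a else 0) := by
    intro i
    unfold pl
    rw [coeff_add, coeff_sub, coeff_X_pow, coeff_X, coeff_C]
    simp only [eq_comm (a := (1 : ℕ)) (b := i)]
  obtain ⟨G, hGm, -, hG⟩ := H63.exists_lift P (pl_monic (a := a)) (by
    intro i
    rw [hcoeff, sub_eq_add_neg]
    refine (P.nonarch _ _).trans (max_le ((P.nonarch _ _).trans (max_le ?_ ?_)) ?_)
    · split_ifs
      · rw [map_one]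
      · rw [map_zero]; exact zero_le_one
    · rw [P.abv.map_neg]
      split_ifs
      · rw [map_one]
      · rw [map_zero]; exact zero_le_one
    · split_ifs
      · exact ha
      · rw [map_zero]; exact zero_le_one)
  refine locN_quad_iff.mp (H63.loc_unram pb hGm (hmp.trans hG)
    (H63.sep_of_discr (by rw [pl_natDegree]; norm_num) ?_ hGm hG) hc ?_)
  · rw [discr_of_degree_eq_two (by
      rw [degree_eq_natDegree pl_monic.ne_zero, pl_natDegree]; rfl)]
    simp only [hcoeff]
    norm_num
    exact hd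
  · rw [hs, hE]

/-- The local hypothesis of `hasse4` where `a` is integral with unit discriminant and `r` is a
unit. -/
theorem loc_ok_units {P : Place F} {a r : F} (ha : P.abv a ≤ 1) (hd : P.abv (1 - 4 * a) = 1)
    (hr : P.abv r = 1) (b : F) : ∃ x y z w : P.comp,
      nf (algebraMap F P.comp a) x y ≠ 0 ∧
      algebraMap F P.comp r * nf (algebraMap F P.comp a) x y =
        nf (algebraMap F P.comp b) z w := by
  have hr0 : r ≠ 0 := by
    rintro rfl
    rw [map_zero] at hr
    exact zero_ne_one hr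
  obtain ⟨x, y, hxy⟩ := loc_int ha hd one_ne_zero (s := r⁻¹)
    (by rw [map_inv₀, hr, inv_one, map_one, one_pow])
  have hr0' : algebraMap F P.comp r ≠ 0 := comp_ne hr0
  refine ⟨x, y, 1, 0, ?_, ?_⟩
  · rw [hxy, map_inv₀]
    exact inv_ne_zero hr0'
  · rw [hxy, map_inv₀, mul_inv_cancel₀ hr0']
    simp [nf]

/-- The local hypothesis of `hasse4` at the places where one of the two fields splits. -/
theorem loc_ok_root {P : Place F} {a b r : F} (ha : 1 - 4 * a ≠ 0) (hb : 1 - 4 * b ≠ 0)
    (hr : r ≠ 0) (h : (∃ α : P.comp, α ^ 2 - α + algebraMap F P.comp a = 0) ∨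
      ∃ α : P.comp, α ^ 2 - α + algebraMap F P.comp b = 0) : ∃ x y z w : P.comp,
      nf (algebraMap F P.comp a) x y ≠ 0 ∧
      algebraMap F P.comp r * nf (algebraMap F P.comp a) x y =
        nf (algebraMap F P.comp b) z w := by
  have hr0' : algebraMap F P.comp r ≠ 0 := comp_ne hr
  rcases h with h | h
  · obtain ⟨x, y, hxy⟩ := rep_of_root (comp_disc ha) h (c := (algebraMap F P.comp r)⁻¹)
    refine ⟨x, y, 1, 0, by rw [hxy]; exact inv_ne_zero hr0', ?_⟩
    rw [hxy, mul_inv_cancel₀ hr0']
    simp [nf]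
  · obtain ⟨z, w, hzw⟩ := rep_of_root (comp_disc hb) h (c := algebraMap F P.comp r)
    exact ⟨1, 0, z, w, by simp [nf], by rw [hzw]; simp [nf]⟩

/-- The local hypothesis of `hasse4` at the places where `r` is a norm for `a`. -/
theorem loc_ok_norm {P : Place F} {a r : F} (hr : r ≠ 0)
    (h : ∃ x y : P.comp, nf (algebraMap F P.comp a) x y = algebraMap F P.comp r) (b : F) :
    ∃ x y z w : P.comp, nf (algebraMap F P.comp a) x y ≠ 0 ∧
      algebraMap F P.comp r * nf (algebraMap F P.comp a) x y =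
        nf (algebraMap F P.comp b) z w := by
  obtain ⟨x, y, hxy⟩ := h
  have hr0' : algebraMap F P.comp r ≠ 0 := comp_ne hr
  exact ⟨x, y, algebraMap F P.comp r, 0, by rw [hxy]; exact hr0', by
    rw [hxy]; simp only [nf]; ring⟩

/-- The local hypothesis of `hasse4` at the places where `r` is a norm for `b`. -/
theorem loc_ok_norm' {P : Place F} {b r : F} (hr : r ≠ 0)
    (h : ∃ x y : P.comp, nf (algebraMap F P.comp b) x y = algebraMap F P.comp r) (a : F) :
    ∃ x y z w : P.comp, nf (algebraMap F P.comp a) x y ≠ 0 ∧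
      algebraMap F P.comp r * nf (algebraMap F P.comp a) x y =
        nf (algebraMap F P.comp b) z w := by
  obtain ⟨x, y, hxy⟩ := h
  exact ⟨1, 0, x, y, by simp [nf], by rw [hxy]; simp only [nf]; ring⟩

end global

end Vale.Agent.P011.H477.C2
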