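import Vale.Agent.P011.H477.C2.LocT
import Vale.Agent.P011.H698.DensFF

/-!
# Weak approximation on `T ^ 2 + b nf a F1 F2 = τ` in characteristic two

Stereographic projection from the point `(x0, y0, 0)`, `x0 ^ 2 + b y0 ^ 2 = τ`, `y0 ≠ 0`.
-/

open Filter Topology

set_option linter.unusedSectionVars false
set_option linter.unusedVariables false

namespace Vale.Agent.P011.H477.C2

open Vale.Agent.P011.H738 Vale.Agent.P011.H271 Vale.Agent.P011.Hey
open Vale.Agent.P011.H974.R6 (unif_pos unif_lt)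

section alg

variable {L : Type*} [Field L]

/-- The quadratic form `T ^ 2 + b nf a F1 F2`. -/
def qf (a b : L) (d1 d2 d3 : L) : L := d1 ^ 2 + b * nf a d2 d3

theorem qf_stereo (h2 : (2 : L) = 0) {a b x0 y0 d1 d2 d3 s : L}
    (hs : s * qf a b d1 d2 d3 = b * y0 * d3) :
    qf a b (x0 + s * d1) (y0 + s * d2) (s * d3) = x0 ^ 2 + b * y0 ^ 2 := by
  simp only [qf, nf] at hs ⊢
  linear_combination s * hs + (x0 * s * d1 + b * y0 * s * d2 + b * y0 * s * d3) * h2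

theorem qf_diff (h2 : (2 : L) = 0) {a b x0 y0 t f1 f2 : L}
    (h : qf a b t f1 f2 = x0 ^ 2 + b * y0 ^ 2) :
    qf a b (t + x0) (f1 + y0) f2 = b * y0 * f2 := by
  simp only [qf, nf] at h ⊢
  linear_combination h + (x0 ^ 2 + b * y0 ^ 2 + t * x0 + b * f1 * y0) * h2

end alg

section loc

variable {F : Type} [Field F] (h2 : (2 : F) = 0) {v : Place F}

include h2

theorem two_comp' : (2 : v.comp) = 0 := by
  rw [← map_ofNat (algebraMap F v.comp) 2, h2, map_zero]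

theorem qf_move {a b t f1 : v.comp} (hb : b ≠ 0) (hf1 : f1 ≠ 0) {η : ℝ} (hη : 0 < η)
    {u : v.comp} (hu0 : u ≠ 0) (hu : ‖u‖ < 1) :
    ∃ t' f2' : v.comp, f2' ≠ 0 ∧ ‖t' - t‖ < η ∧ ‖f2'‖ < η ∧
      qf a b t' f1 f2' = qf a b t f1 0 := by
  have h2v := two_comp' h2 (v := v)
  have hlim : Tendsto (fun n : ℕ => u ^ n) atTop (𝓝 0) := tendsto_pow_atTop_nhds_zero_of_norm_lt_one hu
  have hc1 : ContinuousAt (fun δ : v.comp => 1 + a * b * δ ^ 2) 0 := by fun_prop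
  have h10 : (1 + a * b * (0 : v.comp) ^ 2) ≠ 0 := by simp
  have hcs : ContinuousAt (fun δ : v.comp => b * f1 * δ / (1 + a * b * δ ^ 2)) 0 :=
    ContinuousAt.div (by fun_prop) hc1 h10
  have hcs2 : ContinuousAt (fun δ : v.comp => b * f1 * δ / (1 + a * b * δ ^ 2) * δ) 0 :=
    hcs.mul continuousAt_id
  have e1 := (hc1.tendsto.comp hlim).eventually_ne h10
  have e2 := (hcs.tendsto.comp hlim).eventually (Metric.ball_mem_nhds _ hη)
  have e3 := (hcs2.tendsto.comp hlim).eventually (Metric.ball_mem_nhds _ hη)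
  obtain ⟨n, h3, h4, h5⟩ := (e1.and (e2.and e3)).exists
  obtain ⟨δ, hδ⟩ : ∃ δ, δ = u ^ n := ⟨_, rfl⟩
  obtain ⟨s, hs⟩ : ∃ s, s = b * f1 * δ / (1 + a * b * δ ^ 2) := ⟨_, rfl⟩
  simp only [Function.comp_apply, ← hδ] at h3 h4 h5
  rw [← hs, dist_eq_norm, mul_zero, zero_div, sub_zero] at h4
  rw [← hs, dist_eq_norm, mul_zero, sub_zero] at h5
  have hδ0 : δ ≠ 0 := by rw [hδ]; exact pow_ne_zero n hu0
  have hs0 : s ≠ 0 := by
    rw [hs]
    exact div_ne_zero (mul_ne_zero (mul_ne_zero hb hf1) hδ0) h3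
  have hs' : s * (1 + a * b * δ ^ 2) = b * f1 * δ := by rw [hs]; exact div_mul_cancel₀ _ h3
  refine ⟨t + s, s * δ, mul_ne_zero hs0 hδ0, by rwa [add_sub_cancel_left], h5, ?_⟩
  simp only [qf, nf]
  linear_combination s * hs' + (t * s + b * f1 * δ * s) * h2v

theorem qf_move' {a b τ t f1 f2 : v.comp} (hb : b ≠ 0) (ht : qf a b t f1 f2 = τ) (ht' : t ^ 2 ≠ τ)
    {η : ℝ} (hη : 0 < η) {u : v.comp} (hu0 : u ≠ 0) (hu : ‖u‖ < 1) :
    ∃ t' f1' f2' : v.comp, f2' ≠ 0 ∧ ‖t' - t‖ < η ∧ ‖f1' - f1‖ < η ∧ ‖f2' - f2‖ < η ∧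
      qf a b t' f1' f2' = τ := by
  by_cases hf2 : f2 = 0
  · subst hf2
    have hf1 : f1 ≠ 0 := by
      rintro rfl
      apply ht'
      rw [← ht]
      simp [qf, nf]
    obtain ⟨t', f2', h3, h4, h5, h6⟩ := qf_move h2 (a := a) (t := t) hb hf1 hη hu0 hu
    exact ⟨t', f1, f2', h3, h4, by rwa [sub_self, norm_zero], by rwa [sub_zero], h6.trans ht⟩
  · exact ⟨t, f1, f2, hf2, by rwa [sub_self, norm_zero], by rwa [sub_self, norm_zero],
      by rwa [sub_self, norm_zero], ht⟩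

theorem qf_cont {a b x0 y0 t f1 f2 : v.comp} (hb : b ≠ 0) (hy0 : y0 ≠ 0) (hf2 : f2 ≠ 0)
    (ht : qf a b t f1 f2 = x0 ^ 2 + b * y0 ^ 2) {η : ℝ} (hη : 0 < η) :
    ∃ ρ : ℝ, 0 < ρ ∧ ∀ d1 d2 d3 : v.comp, ‖d1 - (t + x0)‖ < ρ → ‖d2 - (f1 + y0)‖ < ρ →
      ‖d3 - f2‖ < ρ → qf a b d1 d2 d3 ≠ 0 ∧
        ‖x0 + b * y0 * d3 / qf a b d1 d2 d3 * d1 - t‖ < η ∧
        ‖y0 + b * y0 * d3 / qf a b d1 d2 d3 * d2 - f1‖ < η ∧
        ‖b * y0 * d3 / qf a b d1 d2 d3 * d3 - f2‖ < η := by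
  have h2v := two_comp' h2 (v := v)
  have hq := qf_diff h2v ht
  have hq0 : qf a b (t + x0) (f1 + y0) f2 ≠ 0 := by
    rw [hq]
    exact mul_ne_zero (mul_ne_zero hb hy0) hf2
  obtain ⟨P, hP⟩ : ∃ P : v.comp × v.comp × v.comp, P = (t + x0, f1 + y0, f2) := ⟨_, rfl⟩
  have hcq : ContinuousAt (fun p : v.comp × v.comp × v.comp => qf a b p.1 p.2.1 p.2.2) P := by
    simp only [qf, nf]
    fun_prop
  have hP0 : (fun p : v.comp × v.comp × v.comp => qf a b p.1 p.2.1 p.2.2) P ≠ 0 := by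
    rw [hP]
    exact hq0
  have hcs : ContinuousAt (fun p : v.comp × v.comp × v.comp =>
      b * y0 * p.2.2 / qf a b p.1 p.2.1 p.2.2) P :=
    ContinuousAt.div (by fun_prop) hcq hP0
  have hs1 : (fun p : v.comp × v.comp × v.comp => b * y0 * p.2.2 / qf a b p.1 p.2.1 p.2.2) P = 1 := by
    rw [hP]
    change b * y0 * f2 / qf a b (t + x0) (f1 + y0) f2 = 1
    rw [hq]
    exact div_self (mul_ne_zero (mul_ne_zero hb hy0) hf2)
  have hc1 : ContinuousAt (fun p : v.comp × v.comp × v.comp =>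
      x0 + b * y0 * p.2.2 / qf a b p.1 p.2.1 p.2.2 * p.1) P :=
    continuousAt_const.add (hcs.mul (by fun_prop))
  have hc2 : ContinuousAt (fun p : v.comp × v.comp × v.comp =>
      y0 + b * y0 * p.2.2 / qf a b p.1 p.2.1 p.2.2 * p.2.1) P :=
    continuousAt_const.add (hcs.mul (by fun_prop))
  have hc3 : ContinuousAt (fun p : v.comp × v.comp × v.comp =>
      b * y0 * p.2.2 / qf a b p.1 p.2.1 p.2.2 * p.2.2) P :=
    hcs.mul (by fun_prop)
  have v1 : x0 + b * y0 * P.2.2 / qf a b P.1 P.2.1 P.2.2 * P.1 = t := by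
    have := hs1
    simp only at this
    rw [this, hP]
    linear_combination x0 * h2v
  have v2 : y0 + b * y0 * P.2.2 / qf a b P.1 P.2.1 P.2.2 * P.2.1 = f1 := by
    have := hs1
    simp only at this
    rw [this, hP]
    linear_combination y0 * h2v
  have v3 : b * y0 * P.2.2 / qf a b P.1 P.2.1 P.2.2 * P.2.2 = f2 := by
    have := hs1
    simp only at this
    rw [this, hP, one_mul]
  have e0 := hcq.eventually_ne hP0
  have e1 := hc1.tendsto.eventually (Metric.ball_mem_nhds _ hη)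
  have e2 := hc2.tendsto.eventually (Metric.ball_mem_nhds _ hη)
  have e3 := hc3.tendsto.eventually (Metric.ball_mem_nhds _ hη)
  obtain ⟨ρ, hρ, hρ'⟩ := Metric.eventually_nhds_iff.mp (e0.and (e1.and (e2.and e3)))
  refine ⟨ρ, hρ, fun d1 d2 d3 h3 h4 h5 => ?_⟩
  have h6 : dist ((d1, d2, d3) : v.comp × v.comp × v.comp) P < ρ := by
    rw [hP, Prod.dist_eq, Prod.dist_eq]
    simp only [dist_eq_norm]
    exact max_lt h3 (max_lt h4 h5)
  obtain ⟨h7, h8, h9, h10⟩ := hρ' h6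
  rw [dist_eq_norm] at h8 h9 h10
  rw [v1] at h8
  rw [v2] at h9
  rw [v3] at h10
  exact ⟨h7, h8, h9, h10⟩

end loc

/-- **Weak approximation.** -/
theorem apx {F : Type} [Field F] (h2 : (2 : F) = 0) {a b τ x0 y0 : F} (hb : b ≠ 0)
    (h0 : x0 ^ 2 + b * y0 ^ 2 = τ) (hy0 : y0 ≠ 0) (S : Finset (Place F))
    (t f1 f2 : ∀ v : Place F, v.comp)
    (ht : ∀ v ∈ S, t v ^ 2 + algebraMap F v.comp b * nf (algebraMap F v.comp a) (f1 v) (f2 v) =
      algebraMap F v.comp τ)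
    (ht' : ∀ v ∈ S, t v ^ 2 ≠ algebraMap F v.comp τ)
    (η : Place F → ℝ) (hη : ∀ v ∈ S, 0 < η v) :
    ∃ T F1 F2 : F, T ^ 2 + b * nf a F1 F2 = τ ∧ ∀ v ∈ S,
      ‖algebraMap F v.comp T - t v‖ < η v ∧ ‖algebraMap F v.comp F1 - f1 v‖ < η v ∧
        ‖algebraMap F v.comp F2 - f2 v‖ < η v := by
  classical
  rcases S.eq_empty_or_nonempty with hS | hS
  · refine ⟨x0, y0, 0, ?_, fun v hv => ?_⟩
    · rw [← h0]
      simp [nf]
    · rw [hS] at hv
      simp at hv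
  have hinj : ∀ v : Place F, Function.Injective (algebraMap F v.comp) := fun v =>
    (algebraMap F v.comp).injective
  have hmap : ∀ v : Place F, algebraMap F v.comp τ = algebraMap F v.comp x0 ^ 2 +
      algebraMap F v.comp b * algebraMap F v.comp y0 ^ 2 := fun v => by
    rw [← h0, map_add, map_mul, map_pow, map_pow]
  have hqmap : ∀ (v : Place F) (d1 d2 d3 : F), algebraMap F v.comp (qf a b d1 d2 d3) =
      qf (algebraMap F v.comp a) (algebraMap F v.comp b) (algebraMap F v.comp d1)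
        (algebraMap F v.comp d2) (algebraMap F v.comp d3) := fun v d1 d2 d3 => by
    simp only [qf, nf, map_add, map_mul, map_pow]
  -- local data
  have hloc : ∀ v : Place F, ∃ (e1 e2 e3 : v.comp) (ρ : ℝ), v ∈ S → 0 < ρ ∧
      ∀ d1 d2 d3 : v.comp, ‖d1 - e1‖ < ρ → ‖d2 - e2‖ < ρ → ‖d3 - e3‖ < ρ →
        qf (algebraMap F v.comp a) (algebraMap F v.comp b) d1 d2 d3 ≠ 0 ∧
        ‖algebraMap F v.comp x0 + algebraMap F v.comp b * algebraMap F v.comp y0 * d3 /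
          qf (algebraMap F v.comp a) (algebraMap F v.comp b) d1 d2 d3 * d1 - t v‖ < η v ∧
        ‖algebraMap F v.comp y0 + algebraMap F v.comp b * algebraMap F v.comp y0 * d3 /
          qf (algebraMap F v.comp a) (algebraMap F v.comp b) d1 d2 d3 * d2 - f1 v‖ < η v ∧
        ‖algebraMap F v.comp b * algebraMap F v.comp y0 * d3 /
          qf (algebraMap F v.comp a) (algebraMap F v.comp b) d1 d2 d3 * d3 - f2 v‖ < η v := by
    intro v
    by_cases hv : v ∈ S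
    · have hbv : algebraMap F v.comp b ≠ 0 := (map_ne_zero _).mpr hb
      have hyv : algebraMap F v.comp y0 ≠ 0 := (map_ne_zero _).mpr hy0
      obtain ⟨u, hu0, hu⟩ : ∃ u : v.comp, u ≠ 0 ∧ ‖u‖ < 1 := by
        obtain ⟨x, hx0, hx⟩ := Vale.Agent.P011.H698.place_nontrivial v
        rcases lt_or_gt_of_ne hx with h | h
        · exact ⟨algebraMap F v.comp x, (map_ne_zero _).mpr hx0, by rwa [norm_alg]⟩
        · refine ⟨(algebraMap F v.comp x)⁻¹, inv_ne_zero ((map_ne_zero _).mpr hx0), ?_⟩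
          rw [norm_inv, norm_alg]
          exact inv_lt_one_of_one_lt₀ h
      obtain ⟨t', f1', f2', h3, h4, h5, h6, h7⟩ := qf_move' h2 (v := v) hbv (ht v hv) (ht' v hv)
        (half_pos (hη v hv)) hu0 hu
      rw [hmap v] at h7
      obtain ⟨ρ, hρ, hρ'⟩ := qf_cont h2 (v := v) hbv hyv h3 h7 (half_pos (hη v hv))
      have key : ∀ x y z : v.comp, ‖x - y‖ < η v / 2 → ‖y - z‖ < η v / 2 → ‖x - z‖ < η v := by
        intro x y z hxy hyz
        have e : x - z = (x - y) + (y - z) := by ring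
        rw [e]
        exact (norm_add_le _ _).trans_lt (by linarith)
      refine ⟨t' + algebraMap F v.comp x0, f1' + algebraMap F v.comp y0, f2', ρ,
        fun _ => ⟨hρ, fun d1 d2 d3 h8 h9 h10 => ?_⟩⟩
      obtain ⟨g0, g1, g2, g3⟩ := hρ' d1 d2 d3 h8 h9 h10
      exact ⟨g0, key _ _ _ g1 h4, key _ _ _ g2 h5, key _ _ _ g3 h6⟩
    · exact ⟨0, 0, 0, 0, fun h => absurd h hv⟩
  choose e1 e2 e3 ρ hρ using hloc
  obtain ⟨ε, hε, hερ⟩ : ∃ ε : ℝ, 0 < ε ∧ ∀ v ∈ S, ε ≤ ρ v := by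
    obtain ⟨v0, hv0, hmin⟩ := S.exists_min_image ρ hS
    exact ⟨ρ v0, (hρ v0 hv0).1, hmin⟩
  obtain ⟨d1, hd1⟩ := Vale.Agent.P011.H698.place_weak S (fun v => e1 v) hε
  obtain ⟨d2, hd2⟩ := Vale.Agent.P011.H698.place_weak S (fun v => e2 v) hε
  obtain ⟨d3, hd3⟩ := Vale.Agent.P011.H698.place_weak S (fun v => e3 v) hε
  have hall := fun (v : Place F) (hv : v ∈ S) => (hρ v hv).2 (algebraMap F v.comp d1)
    (algebraMap F v.comp d2) (algebraMap F v.comp d3) ((hd1 ⟨v, hv⟩).trans_le (hερ v hv))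
    ((hd2 ⟨v, hv⟩).trans_le (hερ v hv)) ((hd3 ⟨v, hv⟩).trans_le (hερ v hv))
  have hq0 : qf a b d1 d2 d3 ≠ 0 := by
    obtain ⟨v, hv⟩ := hS
    intro h
    apply (hall v hv).1
    rw [← hqmap, h, map_zero]
  refine ⟨x0 + b * y0 * d3 / qf a b d1 d2 d3 * d1, y0 + b * y0 * d3 / qf a b d1 d2 d3 * d2,
    b * y0 * d3 / qf a b d1 d2 d3 * d3, ?_, fun v hv => ?_⟩
  · rw [← h0]
    exact qf_stereo h2 (div_mul_cancel₀ _ hq0)
  · obtain ⟨-, g1, g2, g3⟩ := hall v hv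
    rw [← hqmap] at g1 g2 g3
    simp only [map_add, map_mul, map_div₀]
    exact ⟨g1, g2, g3⟩

end Vale.Agent.P011.H477.C2
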