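import Vale.Agent.P011.H477.C2.TR
import Vale.Agent.P011.H974.R6D

/-!
# The local input of the quaternion base in characteristic two (module M2 of helper706's plan)

`N_τ` is the group of the values of `nf (τ⁻¹ ^ 2)`, i.e. of `x ^ 2 + τ x y + y ^ 2`.
-/

open Module Polynomial

set_option linter.unusedSectionVars false
set_option linter.unusedVariables false

namespace Vale.Agent.P011.H477.C2

open Vale.Agent.P011.H738 Vale.Agent.P011.H271 Vale.Agent.P011.Hey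
open Vale.Agent.P011.H974.R6 (Ev ev_or ev_mul_of_not ev_div_of_not ev_sq exists_zpow unif_pos
  unif_lt norm_add_of_lt norm_sub_of_lt)

section alg

variable {L : Type*} [Field L]

/-- The values of the norm form of `X ^ 2 - X + τ⁻¹ ^ 2`. -/
def NN (τ c : L) : Prop := ∃ x y : L, nf (τ⁻¹ ^ 2) x y = c

theorem NN.sq (τ c : L) : NN τ (c ^ 2) := ⟨c, 0, by simp only [nf]; ring⟩

theorem NN.one (τ : L) : NN τ 1 := ⟨1, 0, by simp only [nf]; ring⟩

theorem NN.mul {τ c d : L} (hc : NN τ c) (hd : NN τ d) : NN τ (c * d) := by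
  obtain ⟨x, y, rfl⟩ := hc
  obtain ⟨z, w, rfl⟩ := hd
  exact ⟨_, _, (nf_mul _ _ _ _ _).symm⟩

theorem NN.inv {τ c : L} (hc : NN τ c) : NN τ c⁻¹ := by
  by_cases h : c = 0
  · rw [h, inv_zero]
    exact ⟨0, 0, by simp [nf]⟩
  have h1 := hc.mul (NN.sq τ c⁻¹)
  have e : c * c⁻¹ ^ 2 = c⁻¹ := by
    field_simp
  rwa [e] at h1

theorem NN.div {τ c d : L} (hc : NN τ c) (hd : NN τ d) : NN τ (c / d) := by
  rw [div_eq_mul_inv]
  exact hc.mul hd.inv

theorem NN.of_mul {τ c d : L} (hd0 : d ≠ 0) (h : NN τ (c * d)) (hd : NN τ d) : NN τ c := by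
  have h1 := h.div hd
  rwa [mul_div_cancel_right₀ _ hd0] at h1

variable (h2 : (2 : L) = 0)

include h2

theorem NN.as {τ : L} (hτ : τ ≠ 0) (α : L) : NN τ (1 + τ * (α + α ^ 2)) := by
  refine ⟨1 + α, τ * α, ?_⟩
  simp only [nf]
  field_simp
  linear_combination (α + α ^ 2) * h2

theorem NN.tau {τ : L} (hτ : τ ≠ 0) : NN τ τ := by
  refine ⟨1, τ, ?_⟩
  simp only [nf]
  field_simp
  linear_combination h2

end alg

section loc

variable {F : Type} [Field F] [GFF F] (h2 : (2 : F) = 0) {v : Place F}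

include h2

theorem two_comp : (2 : v.comp) = 0 := by
  rw [← map_ofNat (algebraMap F v.comp) 2, h2, map_zero]

/-- Hensel. -/
theorem exists_as {t : v.comp} (ht : ‖t‖ < 1) : ∃ α : v.comp, α + α ^ 2 = t := by
  obtain ⟨α, h, -⟩ := exists_root_comp (P := v) (a := t) ht
  refine ⟨α, ?_⟩
  have := two_comp h2 (v := v)
  linear_combination h + (α - t) * this

theorem NN.small {τ x : v.comp} (hτ : τ ≠ 0) (hx : ‖x‖ < ‖τ‖) : NN τ (1 + x) := by
  obtain ⟨α, hα⟩ := exists_as h2 (v := v) (t := x / τ) (by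
    rw [norm_div]
    exact (div_lt_one (norm_pos_iff.mpr hτ)).mpr hx)
  have h := NN.as (two_comp h2 (v := v)) hτ α
  rw [hα, mul_div_cancel₀ _ hτ] at h
  exact h

/-- Square classes of units of the field. -/
theorem exists_sq_near_glob {c : F} (hc : v.abv c ≤ 1) : ∃ b : F, v.abv (c - b ^ 2) < 1 := by
  obtain ⟨hfin, -, -⟩ := v.normalized
  have hker : ∀ x : integers v.abv v.nonarch,
      Ideal.Quotient.mk (maxIdeal v.abv v.nonarch) x = 0 ↔ v.abv (x : F) < 1 := fun x => by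
    rw [Ideal.Quotient.eq_zero_iff_mem]
    rfl
  have h22 : (2 : integers v.abv v.nonarch) = 0 := by
    apply Subtype.ext
    exact h2
  have hinj : Function.Injective fun x : integers v.abv v.nonarch ⧸ maxIdeal v.abv v.nonarch =>
      x ^ 2 := by
    intro x y hxy
    obtain ⟨x, rfl⟩ := Ideal.Quotient.mk_surjective x
    obtain ⟨y, rfl⟩ := Ideal.Quotient.mk_surjective y
    change Ideal.Quotient.mk _ x ^ 2 = Ideal.Quotient.mk _ y ^ 2 at hxy
    rw [← sub_eq_zero, ← map_sub, hker]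
    have h3 : Ideal.Quotient.mk (maxIdeal v.abv v.nonarch) ((x - y) ^ 2) = 0 := by
      have e : (x - y) ^ 2 = x ^ 2 - y ^ 2 + 2 * (y ^ 2 - x * y) := by ring
      rw [e, h22, zero_mul, add_zero, map_sub, map_pow, map_pow, hxy, sub_self]
    rw [hker, Subring.coe_pow, map_pow] at h3
    by_contra hcon
    exact absurd h3 (not_lt.mpr (one_le_pow₀ (not_lt.mp hcon)))
  obtain ⟨b, hb⟩ := (Finite.injective_iff_surjective.mp hinj)
    (Ideal.Quotient.mk _ (⟨c, hc⟩ : integers v.abv v.nonarch))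
  obtain ⟨b, rfl⟩ := Ideal.Quotient.mk_surjective b
  change Ideal.Quotient.mk _ b ^ 2 = _ at hb
  refine ⟨b, ?_⟩
  rw [← map_pow, eq_comm, ← sub_eq_zero, ← map_sub, hker] at hb
  exact hb

/-- The residue field is perfect. -/
theorem exists_sq_near {c : v.comp} (hc : ‖c‖ ≤ 1) : ∃ b : v.comp, ‖c - b ^ 2‖ < 1 := by
  obtain ⟨c0, hc0⟩ := dense_alg v c one_pos
  have h1 : ‖algebraMap F v.comp c0‖ ≤ 1 := by
    have e : algebraMap F v.comp c0 = c + -(c - algebraMap F v.comp c0) := by ring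
    rw [e]
    exact (IsUltrametricDist.norm_add_le_max _ _).trans (max_le hc (by rw [norm_neg]; exact hc0.le))
  rw [norm_alg] at h1
  obtain ⟨b, hb⟩ := exists_sq_near_glob h2 h1
  refine ⟨algebraMap F v.comp b, ?_⟩
  have e : c - algebraMap F v.comp b ^ 2 = (c - algebraMap F v.comp c0) +
      algebraMap F v.comp (c0 - b ^ 2) := by
    rw [map_sub, map_pow]
    ring
  rw [e]
  refine (IsUltrametricDist.norm_add_le_max _ _).trans_lt (max_lt hc0 ?_)
  rw [norm_alg]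
  exact hb

/-- A unit is close to the square of a unit. -/
theorem exists_sq_near_unit {c : v.comp} (hc : ‖c‖ = 1) :
    ∃ b : v.comp, ‖b‖ = 1 ∧ ‖c - b ^ 2‖ < 1 := by
  obtain ⟨b, hb⟩ := exists_sq_near h2 hc.le
  refine ⟨b, ?_, hb⟩
  have e : b ^ 2 = c - (c - b ^ 2) := by ring
  have h1 : ‖b‖ ^ 2 = 1 := by
    rw [← norm_pow, e, norm_sub_of_lt v (by rw [hc]; exact hb), hc]
  exact (pow_eq_one_iff_of_nonneg (norm_nonneg _) two_ne_zero).mp h1

/-- One step of the reduction. -/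
theorem red_step {τ x : v.comp} (hτ : τ ≠ 0) (hodd : ¬ Ev v τ) (hx1 : ‖x‖ < 1)
    (hx : ‖τ‖ < ‖x‖) : ∃ n : v.comp, n ≠ 0 ∧ NN τ n ∧ ‖(1 + x) * n - 1‖ < ‖x‖ := by
  have h2v := two_comp h2 (v := v)
  have hx0 : x ≠ 0 := by
    rintro rfl
    rw [norm_zero] at hx
    exact absurd hx (not_lt.mpr (norm_nonneg _))
  have hxp : 0 < ‖x‖ := norm_pos_iff.mpr hx0
  have hτp : 0 < ‖τ‖ := norm_pos_iff.mpr hτ
  suffices h : ∃ n : v.comp, NN τ n ∧ ‖(1 + x) * n - 1‖ < ‖x‖ by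
    obtain ⟨n, h3, h4⟩ := h
    refine ⟨n, ?_, h3, h4⟩
    rintro rfl
    rw [mul_zero, zero_sub, norm_neg, norm_one] at h4
    exact absurd (h4.trans hx1) (lt_irrefl _)
  by_cases hev : Ev v x
  · obtain ⟨u, c, hu, hc, hxu⟩ := hev.unit
    obtain ⟨b, hb1, hb⟩ := exists_sq_near_unit h2 hu
    refine ⟨(1 + b * c) ^ 2, NN.sq _ _, ?_⟩
    have e : (1 + x) * (1 + b * c) ^ 2 - 1 = (u - b ^ 2) * c ^ 2 + x * (b * c) ^ 2 := by
      rw [hxu]
      linear_combination (b * c + b ^ 2 * c ^ 2 + u * c ^ 2 * b * c) * h2v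
    rw [e]
    have hxc : ‖x‖ = ‖c‖ ^ 2 := by rw [hxu, norm_mul, hu, one_mul, norm_pow]
    refine (IsUltrametricDist.norm_add_le_max _ _).trans_lt (max_lt ?_ ?_)
    · rw [norm_mul, norm_pow, hxc]
      exact mul_lt_of_lt_one_left (by rw [← hxc]; exact hxp) hb
    · rw [norm_mul, norm_pow, norm_mul, hb1, one_mul, ← hxc]
      exact mul_lt_of_lt_one_left hxp hx1
  · obtain ⟨u, c, hu, hc, hxu⟩ := (ev_div_of_not hx0 hτ hev hodd).unit
    obtain ⟨b, hb1, hb⟩ := exists_sq_near_unit h2 hu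
    have hxu' : x = τ * (u * c ^ 2) := by rw [← hxu]; field_simp
    refine ⟨1 + τ * (b * c + (b * c) ^ 2), NN.as h2v hτ _, ?_⟩
    have e : (1 + x) * (1 + τ * (b * c + (b * c) ^ 2)) - 1 =
        τ * c ^ 2 * (u - b ^ 2) + τ * (b * c) + x * (τ * (b * c)) + x * (τ * (b * c) ^ 2) := by
      rw [hxu']
      linear_combination (τ * b ^ 2 * c ^ 2) * h2v
    rw [e]
    have hxc : ‖x‖ = ‖τ‖ * ‖c‖ ^ 2 := by rw [hxu', norm_mul, norm_mul, hu, one_mul, norm_pow]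
    have hc1 : 1 < ‖c‖ := by
      by_contra hcon
      have h3 : ‖c‖ ^ 2 ≤ 1 := pow_le_one₀ (norm_nonneg _) (not_lt.mp hcon)
      have h4 : ‖x‖ ≤ ‖τ‖ := by
        rw [hxc]
        exact mul_le_of_le_one_right hτp.le h3
      exact absurd hx (not_lt.mpr h4)
    have hcp : 0 < ‖c‖ := one_pos.trans hc1
    have hτc : ‖τ * (b * c)‖ < ‖x‖ := by
      rw [norm_mul, norm_mul, hb1, one_mul, hxc, pow_two, ← mul_assoc]
      exact lt_mul_of_one_lt_right (mul_pos hτp hcp) hc1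
    have hτc2 : ‖τ * (b * c) ^ 2‖ = ‖x‖ := by
      rw [norm_mul, norm_pow, norm_mul, hb1, one_mul, hxc]
    refine (IsUltrametricDist.norm_add_le_max _ _).trans_lt (max_lt ?_ ?_)
    · refine (IsUltrametricDist.norm_add_le_max _ _).trans_lt (max_lt ?_ ?_)
      · refine (IsUltrametricDist.norm_add_le_max _ _).trans_lt (max_lt ?_ hτc)
        rw [norm_mul, norm_mul, norm_pow, ← hxc]
        exact mul_lt_of_lt_one_right hxp hb
      · rw [norm_mul]
        calc ‖x‖ * ‖τ * (b * c)‖ ≤ ‖x‖ * ‖x‖ := mul_le_mul_of_nonneg_left hτc.le hxp.le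
          _ < ‖x‖ := mul_lt_of_lt_one_left hxp hx1
    · rw [norm_mul, hτc2]
      exact mul_lt_of_lt_one_left hxp hx1

/-- The reduction for one-units. -/
theorem red_one {τ : v.comp} (hτ : τ ≠ 0) (hodd : ¬ Ev v τ) {m : ℤ}
    (hm : ‖τ‖ = ‖algebraMap F v.comp (unif v)‖ ^ m) (N : ℕ) :
    ∀ x : v.comp, ‖x‖ < 1 → (∀ k : ℤ, ‖x‖ = ‖algebraMap F v.comp (unif v)‖ ^ k → m - k ≤ N) →
      ∃ n c : v.comp, n ≠ 0 ∧ NN τ n ∧ ‖c‖ ≤ 1 ∧ (1 + x) * n = 1 + τ * c := by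
  have hτp : 0 < ‖τ‖ := norm_pos_iff.mpr hτ
  induction N with
  | zero =>
    intro x hx1 hk
    have hle : ‖x‖ ≤ ‖τ‖ := by
      by_cases hx0 : x = 0
      · rw [hx0, norm_zero]; exact hτp.le
      obtain ⟨k, hk'⟩ := exists_zpow v hx0
      have h3 := hk k hk'
      rw [hk', hm]
      refine zpow_le_zpow_right_of_le_one₀ (unif_pos v) (unif_lt v).le ?_
      push_cast at h3
      omega
    refine ⟨1, x / τ, one_ne_zero, NN.one _, ?_, by field_simp⟩
    rw [norm_div]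
    exact (div_le_one hτp).mpr hle
  | succ N ih =>
    intro x hx1 hk
    by_cases hle : ‖x‖ ≤ ‖τ‖
    · refine ⟨1, x / τ, one_ne_zero, NN.one _, ?_, by field_simp⟩
      rw [norm_div]
      exact (div_le_one hτp).mpr hle
    have hlt := not_le.mp hle
    obtain ⟨n, hn0, hn, hn1⟩ := red_step h2 hτ hodd hx1 hlt
    have hx0 : x ≠ 0 := by
      rintro rfl
      rw [norm_zero] at hlt
      exact absurd hlt (not_lt.mpr hτp.le)
    obtain ⟨k, hk'⟩ := exists_zpow v hx0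
    obtain ⟨n', c, h3, h4, h5, h6⟩ := ih ((1 + x) * n - 1) (hn1.trans hx1) (by
      intro k2 hk2
      rw [hk2, hk'] at hn1
      have h7 := (zpow_lt_zpow_iff_right_of_lt_one₀ (unif_pos v) (unif_lt v)).mp hn1
      have h8 := hk k hk'
      push_cast at h8
      omega)
    refine ⟨n * n', c, mul_ne_zero hn0 h3, hn.mul h4, h5, ?_⟩
    rw [← h6]
    ring

/-- **Every element is congruent to one modulo `τ` up to norms.** -/
theorem red {τ l : v.comp} (hτ : τ ≠ 0) (hodd : ¬ Ev v τ) (hl : l ≠ 0) :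
    ∃ n c : v.comp, n ≠ 0 ∧ NN τ n ∧ ‖c‖ ≤ 1 ∧ l * n = 1 + τ * c := by
  have h2v := two_comp h2 (v := v)
  -- a unit
  obtain ⟨n1, h3, h4, h5⟩ : ∃ n : v.comp, n ≠ 0 ∧ NN τ n ∧ ‖l * n‖ = 1 := by
    by_cases hev : Ev v l
    · obtain ⟨c, hc, h⟩ := hev
      refine ⟨c⁻¹ ^ 2, pow_ne_zero 2 (inv_ne_zero hc), NN.sq _ _, ?_⟩
      rw [norm_mul, h, norm_pow, norm_inv, inv_pow, mul_inv_cancel₀]
      exact pow_ne_zero 2 (norm_ne_zero_iff.mpr hc)
    · obtain ⟨c, hc, h⟩ := ev_mul_of_not hl hτ hev hodd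
      refine ⟨τ * c⁻¹ ^ 2, mul_ne_zero hτ (pow_ne_zero 2 (inv_ne_zero hc)),
        (NN.tau h2v hτ).mul (NN.sq _ _), ?_⟩
      rw [← mul_assoc, norm_mul, h, norm_pow, norm_inv, inv_pow, mul_inv_cancel₀]
      exact pow_ne_zero 2 (norm_ne_zero_iff.mpr hc)
  -- a one-unit
  obtain ⟨b, hb1, hb⟩ := exists_sq_near_unit h2 h5
  have hb0 : b ≠ 0 := by
    rintro rfl
    rw [norm_zero] at hb1
    exact zero_ne_one hb1
  have h6 : ‖l * n1 * b⁻¹ ^ 2 - 1‖ < 1 := by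
    have e : l * n1 * b⁻¹ ^ 2 - 1 = (l * n1 - b ^ 2) * b⁻¹ ^ 2 := by
      field_simp
    rw [e, norm_mul, norm_pow, norm_inv, hb1, inv_one, one_pow, mul_one]
    exact hb
  obtain ⟨m, hm⟩ := exists_zpow v hτ
  obtain ⟨x, hx⟩ : ∃ x, x = l * n1 * b⁻¹ ^ 2 - 1 := ⟨_, rfl⟩
  obtain ⟨N, hN⟩ : ∃ N : ℕ, ∀ k : ℤ, ‖x‖ = ‖algebraMap F v.comp (unif v)‖ ^ k → m - k ≤ N := by
    by_cases hx0 : x = 0
    · refine ⟨0, fun k hk => ?_⟩
      rw [hx0, norm_zero] at hk
      exact absurd hk (zpow_pos (unif_pos v) k).ne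
    · obtain ⟨k, hk⟩ := exists_zpow v hx0
      refine ⟨(m - k).toNat, fun k' hk' => ?_⟩
      rw [hk] at hk'
      have := zpow_right_injective₀ (unif_pos v) (unif_lt v).ne hk'
      rw [← this]
      exact Int.self_le_toNat _
  obtain ⟨n, c, h7, h8, h9, h10⟩ := red_one h2 hτ hodd hm N x (by rw [hx]; exact h6) hN
  refine ⟨n1 * b⁻¹ ^ 2 * n, c, mul_ne_zero (mul_ne_zero h3 (pow_ne_zero 2 (inv_ne_zero hb0))) h7,
    (h4.mul (NN.sq _ _)).mul h8, h9, ?_⟩
  rw [← h10, hx]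
  ring

/-- **(M2)** The local input. -/
theorem loc_T' (v : Place F) {τ b r : v.comp} (hτ : τ ≠ 0) (hb : b ≠ 0) (hr : r ≠ 0)
    (h : (‖τ‖ < 1 ∧ ¬ Ev v τ) ∨ ∃ x y : v.comp, nf (τ⁻¹ ^ 2) x y = b) :
    ∃ t f1 f2 : v.comp, t ^ 2 + b * nf (τ⁻¹ ^ 2) f1 f2 = τ ∧ t ^ 2 ≠ τ ∧
      ((¬ ∃ x y : v.comp, nf (τ⁻¹ ^ 2) x y = b) → ‖t‖ = ‖τ‖) ∧
      ∃ η : ℝ, 0 < η ∧ ∀ T : v.comp, ‖T - t‖ < η → T ≠ 0 ∧
        ∃ x y z w : v.comp, nf (τ⁻¹ ^ 2) x y ≠ 0 ∧
          r * nf (τ⁻¹ ^ 2) x y = nf (T⁻¹ ^ 2) z w := by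
  have h2v := two_comp h2 (v := v)
  have hτp : 0 < ‖τ‖ := norm_pos_iff.mpr hτ
  by_cases hN : ∃ x y : v.comp, nf (τ⁻¹ ^ 2) x y = b
  · -- the split case
    obtain ⟨t, ht, htτ⟩ : ∃ t : v.comp, 1 < ‖t‖ ∧ t ^ 2 ≠ τ := by
      have h1 : 1 < ‖(algebraMap F v.comp (unif v))⁻¹‖ := by
        rw [norm_inv]
        exact (one_lt_inv₀ (unif_pos v)).mpr (unif_lt v)
      by_cases hq : (algebraMap F v.comp (unif v))⁻¹ ^ 2 = τ
      · refine ⟨(algebraMap F v.comp (unif v))⁻¹ ^ 2, ?_, ?_⟩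
        · rw [norm_pow]
          exact one_lt_pow₀ h1 two_ne_zero
        · intro h3
          have h4 := congrArg norm (h3.trans hq.symm)
          rw [norm_pow, norm_pow] at h4
          have h5 : 1 < ‖(algebraMap F v.comp (unif v))⁻¹‖ ^ 2 := one_lt_pow₀ h1 two_ne_zero
          nlinarith
      · exact ⟨_, h1, hq⟩
    have ht0 : t ≠ 0 := by
      rintro rfl
      rw [norm_zero] at ht
      linarith
    obtain ⟨α, hα⟩ := exists_as h2 (v := v) (t := t⁻¹ ^ 2) (by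
      rw [norm_pow, norm_inv]
      exact pow_lt_one₀ (inv_nonneg.mpr (norm_nonneg _)) (inv_lt_one_of_one_lt₀ ht) two_ne_zero)
    have h3 : NN τ ((τ + t ^ 2) / b) := by
      refine NN.div ?_ hN
      have h4 := (NN.sq τ t).mul (NN.as h2v hτ α)
      rw [hα] at h4
      have e : t ^ 2 * (1 + τ * t⁻¹ ^ 2) = τ + t ^ 2 := by
        field_simp
        ring
      rwa [e] at h4
    obtain ⟨f1, f2, hf⟩ := h3
    refine ⟨t, f1, f2, ?_, htτ, fun h => absurd hN h, ‖t‖ - 1, by linarith, fun T hT => ?_⟩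
    · rw [hf, mul_div_cancel₀ _ hb]
      linear_combination t ^ 2 * h2v
    · have hT1 : 1 < ‖T‖ := by
        have := norm_sub_norm_le t T
        rw [norm_sub_rev] at this
        linarith
      have hT0 : T ≠ 0 := by
        rintro rfl
        rw [norm_zero] at hT1
        linarith
      refine ⟨hT0, ?_⟩
      obtain ⟨β, hβ, -⟩ := exists_root_comp (P := v) (a := T⁻¹ ^ 2) (by
        rw [norm_pow, norm_inv]
        exact pow_lt_one₀ (inv_nonneg.mpr (norm_nonneg _)) (inv_lt_one_of_one_lt₀ hT1)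
          two_ne_zero)
      obtain ⟨z, w, hzw⟩ := rep_of_root (a := T⁻¹ ^ 2) (c := r) (by
        have e : (4 : v.comp) = 2 * 2 := by norm_num
        rw [e, h2v]
        simp) ⟨β, hβ⟩
      exact ⟨1, 0, z, w, by simp [nf], by rw [hzw]; simp [nf]⟩
  · -- the ramified case
    obtain ⟨hτ1, hodd⟩ := h.resolve_right hN
    obtain ⟨n, c, hn0, hn, hc, hbn⟩ := red h2 hτ hodd hb
    have hc1 : ‖c‖ = 1 := by
      by_contra hcon
      apply hN
      refine NN.of_mul hn0 ?_ hn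
      rw [hbn]
      refine NN.small h2 hτ ?_
      rw [norm_mul]
      exact mul_lt_of_lt_one_right hτp (lt_of_le_of_ne hc hcon)
    obtain ⟨σ, hσ1, hσ⟩ := exists_sq_near_unit h2 hc1
    -- the choice of `s`
    obtain ⟨s, hs1, hsσ, hrs⟩ : ∃ s : v.comp, ‖s‖ = 1 ∧ ‖s - σ‖ < 1 ∧ NN τ (r * s) := by
      obtain ⟨d, hd0, hd, hdr⟩ : ∃ d : v.comp, d ≠ 0 ∧ NN τ d ∧ Ev v (r * d) := by
        by_cases hev : Ev v r
        · exact ⟨1, one_ne_zero, NN.one _, by rwa [mul_one]⟩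
        · exact ⟨τ, hτ, NN.tau h2v hτ, ev_mul_of_not hr hτ hev hodd⟩
      obtain ⟨u, e, hu, he, hue⟩ := hdr.unit
      have hu0 : u ≠ 0 := by
        rintro rfl
        rw [norm_zero] at hu
        exact zero_ne_one hu
      obtain ⟨w, hw1, hw⟩ := exists_sq_near_unit h2 (c := σ / u) (by
        rw [norm_div, hσ1, hu, div_one])
      refine ⟨u * w ^ 2, by rw [norm_mul, norm_pow, hu, hw1, one_pow, mul_one], ?_, ?_⟩
      · have e1 : u * w ^ 2 - σ = -(u * (σ / u - w ^ 2)) := by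
          field_simp
          ring
        rw [e1, norm_neg, norm_mul, hu, one_mul]
        exact hw
      · have e1 : r * (u * w ^ 2) = r ^ 2 * (e⁻¹ * w) ^ 2 * d := by
          have : u = r * d * e⁻¹ ^ 2 := by
            rw [hue]
            field_simp
          rw [this]
          ring
        rw [e1]
        exact ((NN.sq _ _).mul (NN.sq _ _)).mul hd
    have hs0 : s ≠ 0 := by
      rintro rfl
      rw [norm_zero] at hs1
      exact zero_ne_one hs1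
    have hcs : ‖c + s ^ 2‖ < 1 := by
      have e : c + s ^ 2 = (c - σ ^ 2) + (s - σ) * (s - σ) := by
        linear_combination (s * σ) * h2v
      rw [e]
      refine (IsUltrametricDist.norm_add_le_max _ _).trans_lt (max_lt hσ ?_)
      rw [norm_mul]
      calc ‖s - σ‖ * ‖s - σ‖ ≤ ‖s - σ‖ * 1 :=
            mul_le_mul_of_nonneg_left hsσ.le (norm_nonneg _)
        _ < 1 := by rw [mul_one]; exact hsσ
    have h3 : NN τ ((τ + (τ * s) ^ 2) / b) := by
      have h4 : NN τ (b * (1 + τ * s ^ 2)) := by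
        refine NN.of_mul hn0 ?_ hn
        have e : b * (1 + τ * s ^ 2) * n = 1 + τ * (c + s ^ 2 + τ * c * s ^ 2) := by
          linear_combination (1 + τ * s ^ 2) * hbn
        rw [e]
        refine NN.small h2 hτ ?_
        rw [norm_mul]
        refine mul_lt_of_lt_one_right hτp ?_
        refine (IsUltrametricDist.norm_add_le_max _ _).trans_lt (max_lt hcs ?_)
        rw [norm_mul, norm_mul, norm_pow, hs1, hc1, one_pow, mul_one, mul_one]
        exact hτ1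
      have e : (τ + (τ * s) ^ 2) / b = b * (1 + τ * s ^ 2) * τ * b⁻¹ ^ 2 := by
        field_simp
      rw [e]
      exact (h4.mul (NN.tau h2v hτ)).mul (NN.sq _ _)
    obtain ⟨f1, f2, hf⟩ := h3
    have htn : ‖τ * s‖ = ‖τ‖ := by rw [norm_mul, hs1, mul_one]
    refine ⟨τ * s, f1, f2, ?_, ?_, fun _ => htn, ‖τ‖ * ‖τ‖, mul_pos hτp hτp, fun T hT => ?_⟩
    · rw [hf, mul_div_cancel₀ _ hb]
      linear_combination ((τ * s) ^ 2) * h2v
    · intro h5
      have h6 := congrArg norm h5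
      rw [norm_pow, htn, pow_two] at h6
      exact absurd h6 (mul_lt_of_lt_one_left hτp hτ1).ne
    · have hts0 : τ * s ≠ 0 := mul_ne_zero hτ hs0
      obtain ⟨x, hx⟩ : ∃ x, x = (T - τ * s) / (τ * s) := ⟨_, rfl⟩
      have hx1 : ‖x‖ < ‖τ‖ := by
        rw [hx, norm_div, htn, div_lt_iff₀ hτp]
        exact hT
      have hTx : T = τ * s * (1 + x) := by
        rw [hx]
        field_simp
        ring
      have h1x : 1 + x ≠ 0 := by
        intro h0
        have : x = -1 := by linear_combination h0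
        rw [this, norm_neg, norm_one] at hx1
        exact absurd (hx1.trans hτ1) (lt_irrefl _)
      have hT0 : T ≠ 0 := by rw [hTx]; exact mul_ne_zero hts0 h1x
      refine ⟨hT0, ?_⟩
      have h4 : NN τ (T / r) := by
        have e : T / r = r * s * τ * (1 + x) * r⁻¹ ^ 2 := by
          rw [hTx]
          field_simp
        rw [e]
        exact ((hrs.mul (NN.tau h2v hτ)).mul (NN.small h2 hτ hx1)).mul (NN.sq _ _)
      obtain ⟨x', y', hxy⟩ := h4
      obtain ⟨z, w, hzw⟩ := NN.tau h2v hT0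
      refine ⟨x', y', z, w, ?_, ?_⟩
      · rw [hxy]
        exact div_ne_zero hT0 hr
      · rw [hxy, hzw, mul_div_cancel₀ _ hr]

/-- **(M2)** The local input. -/
theorem loc_T (v : Place F) {τ b r : v.comp} (hτ : τ ≠ 0) (hb : b ≠ 0) (hr : r ≠ 0)
    (h : (‖τ‖ < 1 ∧ ¬ Ev v τ) ∨ ∃ x y : v.comp, nf (τ⁻¹ ^ 2) x y = b) :
    ∃ t f1 f2 : v.comp, t ^ 2 + b * nf (τ⁻¹ ^ 2) f1 f2 = τ ∧
      ((¬ ∃ x y : v.comp, nf (τ⁻¹ ^ 2) x y = b) → ‖t‖ = ‖τ‖) ∧
      ∃ η : ℝ, 0 < η ∧ ∀ T : v.comp, ‖T - t‖ < η → T ≠ 0 ∧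
        ∃ x y z w : v.comp, nf (τ⁻¹ ^ 2) x y ≠ 0 ∧
          r * nf (τ⁻¹ ^ 2) x y = nf (T⁻¹ ^ 2) z w := by
  obtain ⟨t, f1, f2, h3, -, h4⟩ := loc_T' h2 v hτ hb hr h
  exact ⟨t, f1, f2, h3, h4⟩

end loc

end Vale.Agent.P011.H477.C2
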